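import Mathlib
import Vale.Agent.Lib.P243.R3.Defs
open MeasureTheory Set
open scoped Pointwise

namespace Vale.Agent.Lib.P243.R3

/-- `hom c r` is the homothety of Mathlib. -/
theorem M1f_hom_eq (c : E3) (r : ℝ) : hom c r = AffineMap.homothety c r := by
  funext x
  simp [hom, AffineMap.homothety_apply, add_comm]

/-- Volume of a homothetic image in `E3`. -/
theorem M1f_volume_hom (c : E3) (r : ℝ) (hr : 0 ≤ r) (S : Set E3) :
    volume (hom c r '' S) = ENNReal.ofReal (r ^ 3) * volume S := by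
  rw [M1f_hom_eq, Measure.addHaar_image_homothety]
  have h3 : Module.finrank ℝ E3 = 3 := by simp [E3]
  rw [h3, abs_of_nonneg (pow_nonneg hr 3)]

/-- The segment from `0` to `w` is compact. -/
theorem M1f_isCompact_segment (w : E3) : IsCompact (segment ℝ (0 : E3) w) := by
  rw [segment_eq_image]
  exact isCompact_Icc.image (by fun_prop)

/-- Key inclusion: `K + [0, w']` lies in a homothetic copy of `K + [0, w]`. -/
theorem M1f_key {K : Set E3} (hKc : Convex ℝ K) (c : E3) {ρ : ℝ} (hρ : 0 < ρ)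
    (hb : Metric.closedBall c ρ ⊆ K) (w w' : E3) :
    K + segment ℝ (0 : E3) w' ⊆ hom c (1 + ‖w' - w‖ / ρ) '' (K + segment ℝ (0 : E3) w) := by
  intro z hz
  obtain ⟨k, hk, s, hs, rfl⟩ := Set.mem_add.mp hz
  rw [segment_eq_image] at hs
  obtain ⟨t, ht, rfl⟩ := hs
  simp only [smul_zero, zero_add]
  have hLconv : Convex ℝ (K + segment ℝ (0 : E3) w) := hKc.add (convex_segment _ _)
  have hx : k + t • w ∈ K + segment ℝ (0 : E3) w :=
    Set.add_mem_add hk (by rw [segment_eq_image]; exact ⟨t, ht, by simp⟩)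
  have hballL : Metric.closedBall c ρ ⊆ K + segment ℝ (0 : E3) w := by
    intro y hy
    have h0 : y + 0 ∈ K + segment ℝ (0 : E3) w :=
      Set.add_mem_add (hb hy) (left_mem_segment _ _ _)
    simpa using h0
  obtain ⟨δ, hδ⟩ : ∃ δ, δ = ‖w' - w‖ := ⟨_, rfl⟩
  rw [← hδ]
  by_cases hδ0 : δ = 0
  · have hww : w' = w := by
      have h0 : ‖w' - w‖ = 0 := hδ ▸ hδ0
      exact sub_eq_zero.mp (norm_eq_zero.mp h0)
    refine ⟨k + t • w, hx, ?_⟩
    simp [hom, hδ0, hww]
  · have hδpos : 0 < δ := lt_of_le_of_ne (hδ ▸ norm_nonneg _) (Ne.symm hδ0)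
    have hen : ‖t • (w' - w)‖ ≤ δ := by
      rw [norm_smul, Real.norm_eq_abs, abs_of_nonneg ht.1, hδ]
      calc t * ‖w' - w‖ ≤ 1 * ‖w' - w‖ := mul_le_mul_of_nonneg_right ht.2 (norm_nonneg _)
        _ = ‖w' - w‖ := one_mul _
    have hb' : c + (ρ / δ) • (t • (w' - w)) ∈ Metric.closedBall c ρ := by
      rw [Metric.mem_closedBall, dist_eq_norm, add_sub_cancel_left, norm_smul, Real.norm_eq_abs,
        abs_of_pos (div_pos hρ hδpos)]
      calc ρ / δ * ‖t • (w' - w)‖ ≤ ρ / δ * δ :=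
            mul_le_mul_of_nonneg_left hen (div_pos hρ hδpos).le
        _ = ρ := by field_simp
    have hlampos : 0 < δ / ρ := div_pos hδpos hρ
    have hy : (1 + δ / ρ)⁻¹ • (k + t • w) + ((δ / ρ) / (1 + δ / ρ)) • (c + (ρ / δ) • (t • (w' - w)))
        ∈ K + segment ℝ (0 : E3) w := by
      apply hLconv hx (hballL hb') (by positivity) (by positivity)
      field_simp
    refine ⟨_, hy, ?_⟩
    have hs1 : (1 + δ / ρ) * (1 + δ / ρ)⁻¹ = 1 := mul_inv_cancel₀ (by positivity)
    have hs2 : (1 + δ / ρ) * ((δ / ρ) / (1 + δ / ρ)) = δ / ρ := by field_simp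
    have hs3 : (δ / ρ) * (ρ / δ) = 1 := by field_simp
    have h1 : (1 + δ / ρ) • ((1 + δ / ρ)⁻¹ • (k + t • w)
        + ((δ / ρ) / (1 + δ / ρ)) • (c + (ρ / δ) • (t • (w' - w))))
        = (k + t • w) + (δ / ρ) • c + t • (w' - w) := by
      rw [smul_add, smul_smul, smul_smul, hs1, hs2, one_smul, smul_add, smul_smul, hs3, one_smul]
      abel
    simp only [hom]
    rw [smul_sub, h1]
    module

/-- One-sided comparison of the volumes of `K + [0, w']` and `K + [0, w]`. -/
theorem M1f_F_le {K : Set E3} (hK : Body K) (c : E3) {ρ : ℝ} (hρ : 0 < ρ)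
    (hb : Metric.closedBall c ρ ⊆ K) (w w' : E3) :
    (volume (K + segment ℝ (0 : E3) w')).toReal ≤
      (1 + ‖w' - w‖ / ρ) ^ 3 * (volume (K + segment ℝ (0 : E3) w)).toReal := by
  have hr : 0 ≤ 1 + ‖w' - w‖ / ρ := by positivity
  have hfin : volume (K + segment ℝ (0 : E3) w) < ⊤ :=
    (hK.compact.add (M1f_isCompact_segment w)).measure_lt_top
  have h1 := measure_mono (μ := volume) (M1f_key hK.conv c hρ hb w w')
  rw [M1f_volume_hom c _ hr] at h1
  calc (volume (K + segment ℝ (0 : E3) w')).toReal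
      ≤ (ENNReal.ofReal ((1 + ‖w' - w‖ / ρ) ^ 3)
          * volume (K + segment ℝ (0 : E3) w)).toReal :=
        ENNReal.toReal_mono (ENNReal.mul_ne_top ENNReal.ofReal_ne_top hfin.ne) h1
    _ = (1 + ‖w' - w‖ / ρ) ^ 3 * (volume (K + segment ℝ (0 : E3) w)).toReal := by
        rw [ENNReal.toReal_mul, ENNReal.toReal_ofReal (pow_nonneg hr 3)]

/-- `w ↦ Ahat K w` is continuous for a convex body `K`. -/
theorem M1f_Ahat_continuous {K : Set E3} (hK : Body K) : Continuous (Ahat K) := by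
  obtain ⟨c0, hc0⟩ := hK.int
  obtain ⟨ρ, hρ, hball⟩ := Metric.isOpen_iff.mp isOpen_interior c0 hc0
  have hb : Metric.closedBall c0 (ρ / 2) ⊆ K :=
    (Metric.closedBall_subset_ball (by linarith)).trans (hball.trans interior_subset)
  have hρ2 : 0 < ρ / 2 := by positivity
  have hF : Continuous (fun w : E3 => (volume (K + segment ℝ (0 : E3) w)).toReal) := by
    rw [continuous_iff_continuousAt]
    intro w
    have hup : ∀ w' : E3, (volume (K + segment ℝ (0 : E3) w')).toReal
        ≤ (1 + ‖w' - w‖ / (ρ / 2)) ^ 3 * (volume (K + segment ℝ (0 : E3) w)).toReal :=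
      fun w' => M1f_F_le hK c0 hρ2 hb w w'
    have hlow : ∀ w' : E3, (volume (K + segment ℝ (0 : E3) w)).toReal
        / (1 + ‖w' - w‖ / (ρ / 2)) ^ 3 ≤ (volume (K + segment ℝ (0 : E3) w')).toReal := by
      intro w'
      have h := M1f_F_le hK c0 hρ2 hb w' w
      rw [norm_sub_rev] at h
      rw [div_le_iff₀ (by positivity)]
      linarith [h]
    have hc1 : Continuous (fun w' : E3 => (volume (K + segment ℝ (0 : E3) w)).toReal
        / (1 + ‖w' - w‖ / (ρ / 2)) ^ 3) := by
      apply Continuous.div continuous_const (by fun_prop)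
      intro w'
      positivity
    have hc2 : Continuous (fun w' : E3 => (1 + ‖w' - w‖ / (ρ / 2)) ^ 3
        * (volume (K + segment ℝ (0 : E3) w)).toReal) := by fun_prop
    have ht1 := hc1.tendsto w
    have ht2 := hc2.tendsto w
    simp only [sub_self, norm_zero, zero_div, add_zero, one_pow, div_one, one_mul] at ht1 ht2
    exact tendsto_of_tendsto_of_tendsto_of_le_of_le ht1 ht2 hlow hup
  exact hF.sub continuous_const

end Vale.Agent.Lib.P243.R3
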