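import Mathlib
import Vale.Agent.Lib.P243.R3.Defs
import Vale.Agent.Lib.P243.R3.Defs4
open Set

namespace Vale.Agent.Lib.P243.R3

/-- Case A of the hitting lemma: three facets in pairwise distinct planes. -/
theorem M4e_caseA {K : Set E3} (hK : Body K)
    (hfacet : ∀ (f : E3 →L[ℝ] ℝ) (M : ℝ), Facet K f M → ∀ p q : E3, Star K p q →
      f p = M ∨ f q = M)
    (hseg : ∀ f1 f2 : E3 →L[ℝ] ℝ, f2 ≠ 0 → ∀ M1 M2 : ℝ, (∃ y, f2 y = M2 ∧ f1 y ≠ M1) →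
      ∀ R : ℝ, ∃ α β : E3, ∀ y : E3, ‖y‖ ≤ R → f1 y = M1 → f2 y = M2 → y ∈ segment ℝ α β)
    (f1 f2 f3 : E3 →L[ℝ] ℝ) (M1 M2 M3 : ℝ) (hF1 : Facet K f1 M1) (hF2 : Facet K f2 M2)
    (hF3 : Facet K f3 M3) (h12 : ∃ y, f2 y = M2 ∧ f1 y ≠ M1)
    (h3 : ∃ y, f3 y = M3 ∧ f1 y ≠ M1 ∧ f2 y ≠ M2) :
    ∃ α β : Fin 3 → E3, ∀ p q : E3, Star K p q →
      (p ∈ ⋃ j, segment ℝ (α j) (β j)) ∨ (q ∈ ⋃ j, segment ℝ (α j) (β j)) := by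
  obtain ⟨R, hR⟩ := isBounded_iff_forall_norm_le.mp hK.compact.isBounded
  obtain ⟨y3, hy3, hy31, hy32⟩ := h3
  obtain ⟨a12, b12, h12s⟩ := hseg f1 f2 hF2.1 M1 M2 h12 R
  obtain ⟨a13, b13, h13s⟩ := hseg f1 f3 hF3.1 M1 M3 ⟨y3, hy3, hy31⟩ R
  obtain ⟨a23, b23, h23s⟩ := hseg f2 f3 hF3.1 M2 M3 ⟨y3, hy3, hy32⟩ R
  refine ⟨![a12, a13, a23], ![b12, b13, b23], ?_⟩
  intro p q hpq
  have hpK : ‖p‖ ≤ R := hR p hpq.1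
  have hqK : ‖q‖ ≤ R := hR q hpq.2.1
  have m0 : ∀ y : E3, y ∈ segment ℝ a12 b12 →
      y ∈ ⋃ j, segment ℝ ((![a12, a13, a23] : Fin 3 → E3) j) ((![b12, b13, b23] : Fin 3 → E3) j) :=
    fun y hy => Set.mem_iUnion.mpr ⟨0, hy⟩
  have m1 : ∀ y : E3, y ∈ segment ℝ a13 b13 →
      y ∈ ⋃ j, segment ℝ ((![a12, a13, a23] : Fin 3 → E3) j) ((![b12, b13, b23] : Fin 3 → E3) j) :=
    fun y hy => Set.mem_iUnion.mpr ⟨1, hy⟩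
  have m2 : ∀ y : E3, y ∈ segment ℝ a23 b23 →
      y ∈ ⋃ j, segment ℝ ((![a12, a13, a23] : Fin 3 → E3) j) ((![b12, b13, b23] : Fin 3 → E3) j) :=
    fun y hy => Set.mem_iUnion.mpr ⟨2, hy⟩
  rcases hfacet f1 M1 hF1 p q hpq with hp1 | hq1
  · rcases hfacet f2 M2 hF2 p q hpq with hp2 | hq2
    · exact Or.inl (m0 p (h12s p hpK hp1 hp2))
    · rcases hfacet f3 M3 hF3 p q hpq with hp3 | hq3
      · exact Or.inl (m1 p (h13s p hpK hp1 hp3))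
      · exact Or.inr (m2 q (h23s q hqK hq2 hq3))
  · rcases hfacet f2 M2 hF2 p q hpq with hp2 | hq2
    · rcases hfacet f3 M3 hF3 p q hpq with hp3 | hq3
      · exact Or.inl (m2 p (h23s p hpK hp2 hp3))
      · exact Or.inr (m1 q (h13s q hqK hq1 hq3))
    · exact Or.inr (m0 q (h12s q hqK hq1 hq2))

/-- Three segments meeting every star chord, from the facet lemma, the three-facets lemma and
the line-segment lemma as hypotheses. -/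
theorem M4e_hitting_of {K : Set E3} (hK : Body K)
    (hfacet : ∀ (f : E3 →L[ℝ] ℝ) (M : ℝ), Facet K f M → ∀ p q : E3, Star K p q →
      f p = M ∨ f q = M)
    (hthree : ∀ p1 q1 p2 q2 : E3, Star K p1 q1 → Star K p2 q2 →
      p1 ≠ p2 ∧ p1 ≠ q2 ∧ q1 ≠ p2 ∧ q1 ≠ q2 →
      ∃ (f1 f2 f3 : E3 →L[ℝ] ℝ) (M1 M2 M3 : ℝ), Facet K f1 M1 ∧ Facet K f2 M2 ∧
        Facet K f3 M3 ∧ (∃ y, f2 y = M2 ∧ f1 y ≠ M1) ∧ (∃ y, f3 y = M3 ∧ f1 y ≠ M1 ∧ f2 y ≠ M2))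
    (hseg : ∀ f1 f2 : E3 →L[ℝ] ℝ, f2 ≠ 0 → ∀ M1 M2 : ℝ, (∃ y, f2 y = M2 ∧ f1 y ≠ M1) →
      ∀ R : ℝ, ∃ α β : E3, ∀ y : E3, ‖y‖ ≤ R → f1 y = M1 → f2 y = M2 → y ∈ segment ℝ α β) :
    ∃ α β : Fin 3 → E3, ∀ p q : E3, Star K p q →
      (p ∈ ⋃ j, segment ℝ (α j) (β j)) ∨ (q ∈ ⋃ j, segment ℝ (α j) (β j)) := by
  by_cases hA : ∃ (f1 f2 f3 : E3 →L[ℝ] ℝ) (M1 M2 M3 : ℝ), Facet K f1 M1 ∧ Facet K f2 M2 ∧
      Facet K f3 M3 ∧ (∃ y, f2 y = M2 ∧ f1 y ≠ M1) ∧ (∃ y, f3 y = M3 ∧ f1 y ≠ M1 ∧ f2 y ≠ M2)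
  · obtain ⟨f1, f2, f3, M1, M2, M3, hF1, hF2, hF3, h12, h3⟩ := hA
    exact M4e_caseA hK hfacet hseg f1 f2 f3 M1 M2 M3 hF1 hF2 hF3 h12 h3
  · by_cases hs : ∃ p0 q0 : E3, Star K p0 q0
    swap
    · exact ⟨fun _ => 0, fun _ => 0, fun p q hpq => absurd ⟨p, q, hpq⟩ hs⟩
    obtain ⟨p0, q0, h0⟩ := hs
    refine ⟨![p0, q0, p0], ![p0, q0, p0], ?_⟩
    intro p q hpq
    have mp0 : p0 ∈ ⋃ j, segment ℝ ((![p0, q0, p0] : Fin 3 → E3) j)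
        ((![p0, q0, p0] : Fin 3 → E3) j) :=
      Set.mem_iUnion.mpr ⟨0, left_mem_segment ℝ p0 p0⟩
    have mq0 : q0 ∈ ⋃ j, segment ℝ ((![p0, q0, p0] : Fin 3 → E3) j)
        ((![p0, q0, p0] : Fin 3 → E3) j) :=
      Set.mem_iUnion.mpr ⟨1, left_mem_segment ℝ q0 q0⟩
    by_cases e1 : p0 = p
    · exact Or.inl (e1 ▸ mp0)
    by_cases e2 : p0 = q
    · exact Or.inr (e2 ▸ mp0)
    by_cases e3 : q0 = p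
    · exact Or.inl (e3 ▸ mq0)
    by_cases e4 : q0 = q
    · exact Or.inr (e4 ▸ mq0)
    exact absurd (hthree p0 q0 p q h0 hpq ⟨e1, e2, e3, e4⟩) hA

end Vale.Agent.Lib.P243.R3
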