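import Mathlib
import Vale.Agent.Lib.P243.R3.Defs
import Vale.Agent.Lib.P243.R3.Defs4
open Set

namespace Vale.Agent.Lib.P243.R3

/-- The common kernel of two functionals on `E3`, the second nonzero and the first not
vanishing on the kernel of the second, consists of the multiples of one vector. -/
theorem M4s_common_kernel (f1 f2 : E3 →L[ℝ] ℝ) (hf2 : f2 ≠ 0) (v : E3) (hv2 : f2 v = 0)
    (hv1 : f1 v ≠ 0) :
    ∃ d : E3, ∀ n : E3, f1 n = 0 → f2 n = 0 → ∃ c : ℝ, n = c • d := by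
  have hlt : LinearMap.ker (f1 : E3 →ₗ[ℝ] ℝ) ⊓ LinearMap.ker (f2 : E3 →ₗ[ℝ] ℝ)
      < LinearMap.ker (f2 : E3 →ₗ[ℝ] ℝ) := by
    refine lt_of_le_of_ne inf_le_right ?_
    intro heq
    have hv : v ∈ LinearMap.ker (f2 : E3 →ₗ[ℝ] ℝ) := by
      rw [LinearMap.mem_ker]
      exact hv2
    rw [← heq] at hv
    have h1 : v ∈ LinearMap.ker (f1 : E3 →ₗ[ℝ] ℝ) := hv.1
    rw [LinearMap.mem_ker] at h1
    exact hv1 h1
  have hf2' : (f2 : E3 →ₗ[ℝ] ℝ) ≠ 0 := by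
    intro h
    apply hf2
    ext x
    have := congrArg (fun g : E3 →ₗ[ℝ] ℝ => g x) h
    simpa using this
  have hker2 : Module.finrank ℝ (LinearMap.ker (f2 : E3 →ₗ[ℝ] ℝ)) + 1 = 3 := by
    have h := Module.Dual.finrank_ker_add_one_of_ne_zero (f := (f2 : E3 →ₗ[ℝ] ℝ)) hf2'
    rw [h]
    simp [E3]
  have hN1 : Module.finrank ℝ
      ↥(LinearMap.ker (f1 : E3 →ₗ[ℝ] ℝ) ⊓ LinearMap.ker (f2 : E3 →ₗ[ℝ] ℝ)) ≤ 1 := by
    have := Submodule.finrank_lt_finrank_of_lt hlt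
    omega
  obtain ⟨d, hd⟩ := finrank_le_one_iff.mp hN1
  refine ⟨d.1, ?_⟩
  intro n hn1 hn2
  have hn : n ∈ LinearMap.ker (f1 : E3 →ₗ[ℝ] ℝ) ⊓ LinearMap.ker (f2 : E3 →ₗ[ℝ] ℝ) :=
    ⟨LinearMap.mem_ker.mpr hn1, LinearMap.mem_ker.mpr hn2⟩
  obtain ⟨c, hc⟩ := hd ⟨n, hn⟩
  refine ⟨c, ?_⟩
  have := congrArg Subtype.val hc
  simpa using this.symm

/-- A point `y0 + c • d` with `|c| ≤ T` lies in the segment from `y0 - T • d` to `y0 + T • d`. -/
theorem M4s_mem_segment (y0 d : E3) (c T : ℝ) (hc : |c| ≤ T) :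
    y0 + c • d ∈ segment ℝ (y0 - T • d) (y0 + T • d) := by
  rcases eq_or_lt_of_le ((abs_nonneg c).trans hc) with hT | hT
  · have hc0 : c = 0 := by
      have : |c| ≤ 0 := by rw [hT]; exact hc
      exact abs_eq_zero.mp (le_antisymm this (abs_nonneg c))
    rw [hc0, ← hT]
    simp
  · have h1 := (abs_le.mp hc).1
    have h2 := (abs_le.mp hc).2
    refine ⟨(T - c) / (2 * T), (T + c) / (2 * T), div_nonneg (by linarith) (by linarith),
      div_nonneg (by linarith) (by linarith), ?_, ?_⟩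
    · field_simp
      ring
    · have e1 : (T - c) / (2 * T) + (T + c) / (2 * T) = 1 := by
        field_simp
        ring
      have e2 : (T + c) / (2 * T) * T - (T - c) / (2 * T) * T = c := by
        field_simp
        ring
      calc ((T - c) / (2 * T)) • (y0 - T • d) + ((T + c) / (2 * T)) • (y0 + T • d)
          = ((T - c) / (2 * T) + (T + c) / (2 * T)) • y0
            + ((T + c) / (2 * T) * T - (T - c) / (2 * T) * T) • d := by module
        _ = y0 + c • d := by rw [e1, e2, one_smul]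

/-- The bounded part of the intersection of two distinct planes lies in a segment. -/
theorem M4s_line_segment (f1 f2 : E3 →L[ℝ] ℝ) (hf2 : f2 ≠ 0) (M1 M2 : ℝ)
    (hne : ∃ y, f2 y = M2 ∧ f1 y ≠ M1) (R : ℝ) :
    ∃ α β : E3, ∀ y : E3, ‖y‖ ≤ R → f1 y = M1 → f2 y = M2 → y ∈ segment ℝ α β := by
  by_cases h0 : ∃ y0, f1 y0 = M1 ∧ f2 y0 = M2
  swap
  · exact ⟨0, 0, fun y _ h1 h2 => absurd ⟨y, h1, h2⟩ h0⟩
  obtain ⟨y0, hy01, hy02⟩ := h0
  obtain ⟨y1, hy12, hy11⟩ := hne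
  have hv2 : f2 (y1 - y0) = 0 := by rw [map_sub, hy12, hy02, sub_self]
  have hv1 : f1 (y1 - y0) ≠ 0 := by
    rw [map_sub, hy01]
    exact sub_ne_zero.mpr hy11
  obtain ⟨d, hd⟩ := M4s_common_kernel f1 f2 hf2 (y1 - y0) hv2 hv1
  by_cases hd0 : d = 0
  · refine ⟨y0, y0, ?_⟩
    intro y _ h1 h2
    obtain ⟨c, hc⟩ := hd (y - y0) (by rw [map_sub, h1, hy01, sub_self])
      (by rw [map_sub, h2, hy02, sub_self])
    rw [hd0, smul_zero] at hc
    rw [sub_eq_zero.mp hc]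
    exact left_mem_segment _ _ _
  · have hdpos : 0 < ‖d‖ := norm_pos_iff.mpr hd0
    refine ⟨y0 - ((|R| + ‖y0‖) / ‖d‖) • d, y0 + ((|R| + ‖y0‖) / ‖d‖) • d, ?_⟩
    intro y hyR h1 h2
    obtain ⟨c, hc⟩ := hd (y - y0) (by rw [map_sub, h1, hy01, sub_self])
      (by rw [map_sub, h2, hy02, sub_self])
    have hy : y = y0 + c • d := by rw [← hc]; abel
    have hcn : |c| * ‖d‖ ≤ |R| + ‖y0‖ := by
      have h3 : ‖c • d‖ = |c| * ‖d‖ := by rw [norm_smul, Real.norm_eq_abs]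
      rw [← h3, ← hc]
      calc ‖y - y0‖ ≤ ‖y‖ + ‖y0‖ := norm_sub_le _ _
        _ ≤ |R| + ‖y0‖ := by linarith [le_abs_self R]
    have hcT : |c| ≤ (|R| + ‖y0‖) / ‖d‖ := by
      rw [le_div_iff₀ hdpos]
      exact hcn
    rw [hy]
    exact M4s_mem_segment y0 d c _ hcT

end Vale.Agent.Lib.P243.R3
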